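import Vale.Agent.P254.Slabs.Peak

/-!
P254: Vaaler's bound (a central section of the cube `[-1,1]^N` of dimension `n` has volume at
least `2^n`), and the arithmetic mean inequality for positive semidefinite matrices.
-/

namespace Vale.Agent.P254.Slabs

open MeasureTheory Set Real
open scoped ENNReal Matrix MatrixOrder

variable {N n : ℕ}

lemma det_le_trace {S : Matrix (Fin n) (Fin n) ℝ} (hn : n ≠ 0) (hS : S.PosSemidef) :
    S.det ≤ (S.trace / n) ^ n := by
  have hH := hS.isHermitian
  have hev : ∀ i, 0 ≤ hH.eigenvalues i := hS.eigenvalues_nonneg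
  rw [hH.det_eq_prod_eigenvalues, hH.trace_eq_sum_eigenvalues]
  simp only [RCLike.ofReal_real_eq_id, id_eq]
  have hn' : (0 : ℝ) < n := by exact_mod_cast Nat.pos_of_ne_zero hn
  have h := Real.geom_mean_le_arith_mean_weighted Finset.univ (fun _ : Fin n => (n : ℝ)⁻¹)
    hH.eigenvalues (fun i _ => by positivity) (by simp [hn'.ne']) (fun i _ => hev i)
  rw [Real.finsetProd_rpow _ _ (fun i _ => hev i), ← Finset.mul_sum, ← div_eq_inv_mul] at h
  calc ∏ i, hH.eigenvalues i
      = ((∏ i, hH.eigenvalues i) ^ (n : ℝ)⁻¹) ^ n :=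
        (Real.rpow_inv_natCast_pow (Finset.prod_nonneg fun i _ => hev i) hn).symm
    _ ≤ _ := pow_le_pow_left₀ (Real.rpow_nonneg (Finset.prod_nonneg fun i _ => hev i) _) h n

/-- The section of the cube cut by the range of `T`. -/
def body (T : Matrix (Fin N) (Fin n) ℝ) : Set (Fin n → ℝ) := {x | ∀ i, |(T *ᵥ x) i| ≤ 1}

/-- The hybrid factor: Gaussian on `S`, indicator of `[-1,1]` elsewhere. -/
noncomputable def factor (S : Finset (Fin N)) (i : Fin N) (t : ℝ) : ℝ≥0∞ :=
  if i ∈ S then ENNReal.ofReal (phi t) else (Icc (-1 : ℝ) 1).indicator 1 t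

lemma measurable_factor (S : Finset (Fin N)) (i : Fin N) : Measurable (factor S i) := by
  unfold factor
  split_ifs
  · exact continuous_phi.measurable.ennreal_ofReal
  · exact measurable_one.indicator measurableSet_Icc

lemma factor_mid (S : Finset (Fin N)) (i : Fin N) (p q : ℝ) :
    factor S i p * factor S i q ≤ factor S i ((p + q) / 2) ^ 2 := by
  unfold factor
  split_ifs
  · rw [← ENNReal.ofReal_mul (phi_nonneg p), ← ENNReal.ofReal_pow (phi_nonneg _)]
    exact ENNReal.ofReal_le_ofReal (phi_mid p q)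
  · by_cases hp : p ∈ Icc (-1 : ℝ) 1
    · by_cases hq : q ∈ Icc (-1 : ℝ) 1
      · have hm : (p + q) / 2 ∈ Icc (-1 : ℝ) 1 :=
          ⟨by linarith [hp.1, hq.1], by linarith [hp.2, hq.2]⟩
        simp [indicator_of_mem hp, indicator_of_mem hq, indicator_of_mem hm]
      · simp [indicator_of_notMem hq]
    · simp [indicator_of_notMem hp]

lemma factor_neg (S : Finset (Fin N)) (i : Fin N) (t : ℝ) : factor S i (-t) = factor S i t := by
  unfold factor
  split_ifs
  · rw [phi_neg]
  · by_cases ht : t ∈ Icc (-1 : ℝ) 1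
    · rw [indicator_of_mem ht, indicator_of_mem (show -t ∈ Icc (-1 : ℝ) 1 from
        ⟨by linarith [ht.2], by linarith [ht.1]⟩)]
      rfl
    · rw [indicator_of_notMem ht, indicator_of_notMem fun h : -t ∈ Icc (-1 : ℝ) 1 =>
        ht ⟨by linarith [h.2], by linarith [h.1]⟩]

lemma factor_le (S : Finset (Fin N)) (i : Fin N) (t : ℝ) :
    factor S i t ≤ ENNReal.ofReal (exp 1) * ENNReal.ofReal (phi t) := by
  rw [← ENNReal.ofReal_mul (exp_pos 1).le]
  unfold factor
  split_ifs
  · exact ENNReal.ofReal_le_ofReal (le_mul_of_one_le_left (phi_nonneg t)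
      (one_le_exp zero_le_one))
  · by_cases ht : t ∈ Icc (-1 : ℝ) 1
    · rw [indicator_of_mem ht, Pi.one_apply, ← ENNReal.ofReal_one]
      refine ENNReal.ofReal_le_ofReal ?_
      rw [phi, ← exp_add]
      refine one_le_exp ?_
      have : t ^ 2 ≤ 1 := by nlinarith [ht.1, ht.2]
      nlinarith [Real.pi_pos, Real.pi_le_four]
    · rw [indicator_of_notMem ht]
      exact zero_le

/-- The Gaussian integral over a Gram square root. -/
lemma lintegral_phi_prod {T : Matrix (Fin N) (Fin n) ℝ} {C : Matrix (Fin n) (Fin n) ℝ}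
    (hC : C.det ≠ 0) (hG : Cᵀ * C = Tᵀ * T) :
    ∫⁻ y, ∏ i, ENNReal.ofReal (phi ((T *ᵥ y) i)) = ENNReal.ofReal (2 ^ n / |C.det|) := by
  have hcomb : ∀ (d : ℕ) (z : Fin d → ℝ),
      ∏ i, ENNReal.ofReal (phi (z i)) = ENNReal.ofReal (exp (-(π / 4) * (z ⬝ᵥ z))) := fun d z => by
    rw [← ENNReal.ofReal_prod_of_nonneg fun i _ => phi_nonneg _]
    simp only [phi, ← exp_sum, dotProduct, Finset.mul_sum, pow_two]
  have hsq : ∀ y, (T *ᵥ y) ⬝ᵥ (T *ᵥ y) = (C *ᵥ y) ⬝ᵥ (C *ᵥ y) := fun y => by
    simp only [Matrix.dotProduct_mulVec, ← Matrix.mulVec_transpose, Matrix.mulVec_mulVec, hG]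
  have hone : ∫⁻ z : Fin n → ℝ, ∏ i, ENNReal.ofReal (phi (z i)) = ENNReal.ofReal (2 ^ n) := by
    have hi : Integrable (fun z : Fin n → ℝ => ∏ i, phi (z i)) :=
      Integrable.fintype_prod (f := fun _ => phi) fun _ => integrable_exp_neg_mul_sq (by positivity)
    simp only [← ENNReal.ofReal_prod_of_nonneg fun i _ => phi_nonneg _]
    rw [← ofReal_integral_eq_lintegral_ofReal hi
        (.of_forall fun z => Finset.prod_nonneg fun i _ => phi_nonneg _),
      integral_fintype_prod_volume_eq_prod (fun _ => phi), Finset.prod_const, Finset.card_univ,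
      Fintype.card_fin]
    unfold phi
    rw [integral_gaussian, show π / (π / 4) = 2 ^ 2 by field_simp; ring,
      Real.sqrt_sq (by norm_num)]
  have hm : Measurable fun z : Fin n → ℝ => ∏ i, ENNReal.ofReal (phi (z i)) :=
    Finset.measurable_prod _ fun i _ =>
      (continuous_phi.measurable.comp (measurable_pi_apply i)).ennreal_ofReal
  calc ∫⁻ y, ∏ i, ENNReal.ofReal (phi ((T *ᵥ y) i))
      = ∫⁻ y, ∏ i, ENNReal.ofReal (phi ((C *ᵥ y) i)) := by simp only [hcomb, hsq]
    _ = ∫⁻ z, ∏ i, ENNReal.ofReal (phi (z i)) ∂(Measure.map (Matrix.toLin' C) volume) := by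
        rw [lintegral_map hm (Matrix.toLin' C).continuous_of_finiteDimensional.measurable]
        rfl
    _ = _ := by
        rw [Real.map_matrix_volume_pi_eq_smul_volume_pi hC, lintegral_smul_measure, hone,
          smul_eq_mul, ← ENNReal.ofReal_mul (abs_nonneg _), abs_inv, inv_mul_eq_div]

/-- Vaaler's bound. -/
lemma section_ge {T : Matrix (Fin N) (Fin n) ℝ} {C : Matrix (Fin n) (Fin n) ℝ}
    (hC : C.det ≠ 0) (hG : Cᵀ * C = Tᵀ * T) (hfin : volume (body T) ≠ ⊤) :
    2 ^ n ≤ volume.real (body T) * |C.det| := by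
  set W : Finset (Fin N) → ℝ≥0∞ := fun S => ∫⁻ y, ∏ i, factor S i ((T *ᵥ y) i) with hW
  have hmT : ∀ i, Measurable fun y : Fin n → ℝ => (T *ᵥ y) i := fun i =>
    (by fun_prop : Continuous fun y : Fin n → ℝ => (T *ᵥ y) i).measurable
  have key : ∀ S : Finset (Fin N), W S ≤ volume (body T) := by
    intro S
    induction S using Finset.induction_on with
    | empty =>
      have hbm : MeasurableSet (body T) := by
        simp only [body, ofPred_forall]
        exact MeasurableSet.iInter fun i =>
          measurableSet_le (continuous_abs.measurable.comp (hmT i)) measurable_const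
      rw [← lintegral_indicator_one hbm]
      refine lintegral_mono fun y => ?_
      by_cases hy : y ∈ body T
      · rw [indicator_of_mem hy]
        refine Finset.prod_le_one' fun i _ => ?_
        simp only [factor, Finset.notMem_empty, if_false]
        by_cases h : (T *ᵥ y) i ∈ Icc (-1 : ℝ) 1
        · rw [indicator_of_mem h]; rfl
        · rw [indicator_of_notMem h]; exact zero_le
      · rw [indicator_of_notMem hy]
        obtain ⟨i, hi⟩ := not_forall.1 hy
        refine le_of_eq (Finset.prod_eq_zero (Finset.mem_univ i) ?_)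
        simp only [factor, Finset.notMem_empty, if_false]
        exact indicator_of_notMem
          (show (T *ᵥ y) i ∉ Icc (-1 : ℝ) 1 from fun h => hi (abs_le.2 h)) _
    | insert i S hi ih =>
      refine le_trans ?_ ih
      set w : (Fin n → ℝ) → ℝ≥0∞ :=
        fun y => ∏ j ∈ Finset.univ.erase i, factor S j ((T *ᵥ y) j) with hw
      have hwm : Measurable w :=
        Finset.measurable_prod _ fun j _ => (measurable_factor S j).comp (hmT j)
      have hmid : ∀ x y, w x * w y ≤ w ((1 / 2 : ℝ) • (x + y)) ^ 2 := fun x y => by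
        simp only [hw, ← Finset.prod_mul_distrib, ← Finset.prod_pow]
        refine Finset.prod_le_prod' fun j _ => (factor_mid S j _ _).trans (le_of_eq ?_)
        congr 2
        simp [Matrix.mulVec_smul, Matrix.mulVec_add]
        ring
      have heven : ∀ x, w (-x) = w x := fun x => by
        simp [hw, Matrix.mulVec_neg, factor_neg]
      have hwfin : ∀ R : ℝ, ∫⁻ x in {x | |T i ⬝ᵥ x| ≤ R}, w x ≠ ⊤ := fun R => by
        set K₁ := ENNReal.ofReal (exp (π / 4 * R ^ 2)) *
          ∏ _j ∈ Finset.univ.erase i, ENNReal.ofReal (exp 1) with hK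
        have hpt : ∀ x ∈ {x : Fin n → ℝ | |T i ⬝ᵥ x| ≤ R},
            w x ≤ K₁ * ∏ j, ENNReal.ofReal (phi ((T *ᵥ x) j)) := by
          intro x hx
          have h1 : (1 : ℝ≥0∞) ≤
              ENNReal.ofReal (exp (π / 4 * R ^ 2)) * ENNReal.ofReal (phi ((T *ᵥ x) i)) := by
            rw [← ENNReal.ofReal_mul (exp_pos _).le, ← ENNReal.ofReal_one]
            refine ENNReal.ofReal_le_ofReal ?_
            rw [phi, ← exp_add]
            refine one_le_exp ?_
            have hR : (T i ⬝ᵥ x) ^ 2 ≤ R ^ 2 :=
              sq_le_sq.2 (hx.trans (le_abs_self R))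
            have e : (T *ᵥ x) i = T i ⬝ᵥ x := rfl
            rw [e]
            nlinarith [Real.pi_pos]
          calc w x ≤ ∏ j ∈ Finset.univ.erase i,
                (ENNReal.ofReal (exp 1) * ENNReal.ofReal (phi ((T *ᵥ x) j))) :=
                Finset.prod_le_prod' fun j _ => factor_le S j _
            _ = 1 * _ := (one_mul _).symm
            _ ≤ _ := mul_le_mul' h1 le_rfl
            _ = _ := by
              rw [hK, Finset.prod_mul_distrib,
                ← Finset.mul_prod_erase Finset.univ _ (Finset.mem_univ i)]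
              ring
        refine ne_top_of_le_ne_top ?_ ((setLIntegral_mono
          ((Finset.measurable_prod _ fun j _ =>
            (continuous_phi.measurable.comp (hmT j)).ennreal_ofReal).const_mul K₁) hpt).trans
          (setLIntegral_le_lintegral _ _))
        rw [lintegral_const_mul _ (Finset.measurable_prod _ fun j _ =>
          (continuous_phi.measurable.comp (hmT j)).ennreal_ofReal)]
        simp only [Function.comp_apply]
        rw [lintegral_phi_prod hC hG]
        exact ENNReal.mul_ne_top (ENNReal.mul_ne_top ENNReal.ofReal_ne_top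
          (ENNReal.prod_ne_top fun _ _ => ENNReal.ofReal_ne_top)) ENNReal.ofReal_ne_top
      have hpk := peak_weight hwm hmid heven (T i) hwfin
      have hins : W (insert i S) = ∫⁻ y, ENNReal.ofReal (phi (T i ⬝ᵥ y)) * w y := by
        refine lintegral_congr fun y => ?_
        rw [← Finset.mul_prod_erase Finset.univ _ (Finset.mem_univ i), hw]
        congr 1
        · simp [factor, Matrix.mulVec]
        · refine Finset.prod_congr rfl fun j hj => ?_
          simp [factor, Finset.ne_of_mem_erase hj]
      have hS : W S = ∫⁻ y in {y | |T i ⬝ᵥ y| ≤ 1}, w y := by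
        have hm : MeasurableSet {y : Fin n → ℝ | |T i ⬝ᵥ y| ≤ 1} :=
          measurableSet_le (continuous_abs.measurable.comp (hmT i)) measurable_const
        rw [← lintegral_indicator hm]
        refine lintegral_congr fun y => ?_
        rw [← Finset.mul_prod_erase Finset.univ _ (Finset.mem_univ i)]
        simp only [factor, hi, if_false]
        by_cases hy : |T i ⬝ᵥ y| ≤ 1
        · rw [indicator_of_mem (show y ∈ {y : Fin n → ℝ | |T i ⬝ᵥ y| ≤ 1} from hy),
            indicator_of_mem (show (T *ᵥ y) i ∈ Icc (-1 : ℝ) 1 from abs_le.1 hy), Pi.one_apply,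
            one_mul, hw]
          rfl
        · rw [indicator_of_notMem (show y ∉ {y : Fin n → ℝ | |T i ⬝ᵥ y| ≤ 1} from hy),
            indicator_of_notMem (show (T *ᵥ y) i ∉ Icc (-1 : ℝ) 1 from fun h => hy (abs_le.2 h)),
            zero_mul]
      rw [hins, hS]
      exact hpk
  have h := key Finset.univ
  simp only [hW, factor, Finset.mem_univ, if_true, lintegral_phi_prod hC hG] at h
  have h2 := ENNReal.toReal_mono hfin h
  rw [ENNReal.toReal_ofReal (by positivity), ← measureReal_def] at h2
  exact (div_le_iff₀ (abs_pos.2 hC)).1 h2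

end Vale.Agent.P254.Slabs
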