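import Vale.Agent.P254.Slabs.Marginal
import Vale.Agent.P254.Slabs.Volume
import Vale.Agent.P254.OneSym.Main

/-!
P254: symmetric polytopes with few facets have isotropic constant below that of the simplex.
-/

namespace Vale.Agent.P254.Slabs

open MeasureTheory Set Real
open scoped Nat Matrix MatrixOrder

variable {N n : ℕ}

lemma simplex_lower (hn : 100 ≤ n) :
    (3 / 10 : ℝ) / exp 1 ^ (2 * n) ≤
      (n ! : ℝ) ^ (n + 3) * ((n : ℝ) + 2) / ((n + 2)! : ℝ) ^ (n + 1) := by
  set F : ℝ := (n ! : ℝ)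
  have hF : 0 < F := by positivity
  have hn0 : (0 : ℝ) < n := by exact_mod_cast (by omega : 0 < n)
  have hn' : (100 : ℝ) ≤ n := by exact_mod_cast hn
  have e : ((n + 2)! : ℝ) = ((n : ℝ) + 2) * ((n : ℝ) + 1) * F := by
    simp only [F]; push_cast [Nat.factorial_succ]; ring
  have hr : F ^ (n + 3) * ((n : ℝ) + 2) / (((n : ℝ) + 2) * ((n : ℝ) + 1) * F) ^ (n + 1) =
      F ^ 2 / (((n : ℝ) + 2) ^ n * ((n : ℝ) + 1) ^ (n + 1)) := by
    rw [mul_pow, mul_pow, div_eq_div_iff (by positivity) (by positivity)]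
    ring
  rw [e, hr, div_le_div_iff₀ (by positivity) (by positivity)]
  have hs := pow_le_pow_left₀ (by positivity) (Stirling.le_factorial_stirling n) 2
  have ed : (((n : ℝ) / exp 1) ^ n) ^ 2 = (n : ℝ) ^ n * (n : ℝ) ^ n / exp 1 ^ (2 * n) := by
    rw [div_pow, div_pow, pow_two ((n : ℝ) ^ n), ← pow_mul, mul_comm n 2]
  rw [mul_pow, Real.sq_sqrt (by positivity), ed, mul_div, div_le_iff₀ (by positivity)] at hs
  refine le_trans ?_ hs
  have hp : ∀ k : ℕ, ((n : ℝ) + k) ^ n ≤ (n : ℝ) ^ n * exp 1 ^ k := fun k => by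
    have := pow_le_pow_left₀ (by positivity) (Real.add_one_le_exp ((k : ℝ) / n)) n
    rw [← Real.exp_nat_mul, show (n : ℝ) * ((k : ℝ) / n) = (k : ℕ) * 1 by field_simp,
      Real.exp_nat_mul] at this
    calc ((n : ℝ) + k) ^ n = (n : ℝ) ^ n * ((k : ℝ) / n + 1) ^ n := by
          rw [← mul_pow]; congr 1; field_simp; ring
      _ ≤ _ := mul_le_mul_of_nonneg_left this (by positivity)
  have h1 := hp 1
  have h2 := hp 2
  simp only [Nat.cast_ofNat, Nat.cast_one, pow_one] at h1 h2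
  have he3 : exp 1 ^ 3 < 20.1 :=
    (pow_lt_pow_left₀ Real.exp_one_lt_d9 (exp_pos 1).le (by norm_num)).trans (by norm_num)
  have hA : (0 : ℝ) ≤ (n : ℝ) ^ n * (n : ℝ) ^ n := by positivity
  calc 3 / 10 * (((n : ℝ) + 2) ^ n * ((n : ℝ) + 1) ^ (n + 1))
      ≤ 3 / 10 * (((n : ℝ) ^ n * exp 1 ^ 2) * (((n : ℝ) ^ n * exp 1) * ((n : ℝ) + 1))) := by
        rw [pow_succ]
        gcongr
    _ = ((n : ℝ) ^ n * (n : ℝ) ^ n) * (3 / 10 * exp 1 ^ 3 * ((n : ℝ) + 1)) := by ring
    _ ≤ ((n : ℝ) ^ n * (n : ℝ) ^ n) * (2 * π * n) := by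
        refine mul_le_mul_of_nonneg_left ?_ hA
        nlinarith [Real.pi_gt_d2]
    _ = _ := by ring

/-- The simplex value in its short form. -/
noncomputable def sval (n : ℕ) : ℝ :=
  (n ! : ℝ) ^ (n + 3) * ((n : ℝ) + 2) / ((n + 2)! : ℝ) ^ (n + 1)

lemma sval_eq (n : ℕ) :
    sval n = (n ! : ℝ) ^ 2 / (((n : ℝ) + 2) ^ n * ((n : ℝ) + 1) ^ (n + 1)) := by
  rw [sval, show ((n + 2)! : ℝ) = ((n : ℝ) + 2) * ((n : ℝ) + 1) * (n ! : ℝ) by
    push_cast [Nat.factorial_succ]; ring, mul_pow, mul_pow,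
    div_eq_div_iff (by positivity) (by positivity)]
  ring

lemma num_large (hn : 100 ≤ n) : (2 / 15 : ℝ) ^ n < sval n := by
  refine lt_of_lt_of_le ?_ (simplex_lower hn)
  rw [lt_div_iff₀ (by positivity), pow_mul, ← mul_pow]
  have he2 : exp 1 ^ 2 ≤ 7.38906 :=
    (pow_le_pow_left₀ (exp_pos 1).le Real.exp_one_lt_d9.le 2).trans (by norm_num)
  calc (2 / 15 * exp 1 ^ 2 : ℝ) ^ n ≤ (0.98521 : ℝ) ^ n :=
        pow_le_pow_left₀ (by positivity) (by linarith) n
    _ ≤ (0.98521 : ℝ) ^ 100 := pow_le_pow_of_le_one (by norm_num) (by norm_num) hn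
    _ < _ := by norm_num

lemma num_small : ∀ n, 2 ≤ n → (23 / 240 : ℝ) ^ n < sval n := by
  intro n hn
  have base : ∀ m, 2 ≤ m → m ≤ 5 → (23 / 240 : ℝ) ^ m < sval m := by
    intro m h1 h2
    rw [sval_eq]
    interval_cases m <;> norm_num [Nat.factorial]
  rcases Nat.lt_or_ge n 5 with h | h
  · exact base n hn h.le
  clear hn
  induction n, h using Nat.le_induction with
  | base => exact base 5 (by norm_num) le_rfl
  | succ m hm ih =>
    rw [sval_eq, lt_div_iff₀ (by positivity)] at ih ⊢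
    push_cast [Nat.factorial_succ]
    have hm' : (5 : ℝ) ≤ m := by exact_mod_cast hm
    have h1 : ((m : ℝ) + 3) ^ (m + 1) ≤ ((m : ℝ) + 1) ^ (m + 1) * exp 1 ^ 2 := by
      have := pow_le_pow_left₀ (by positivity) (Real.add_one_le_exp (2 / ((m : ℝ) + 1))) (m + 1)
      rw [← Real.exp_nat_mul, show ((m + 1 : ℕ) : ℝ) * (2 / ((m : ℝ) + 1)) = (2 : ℕ) * 1 by
        push_cast; field_simp, Real.exp_nat_mul] at this
      calc ((m : ℝ) + 3) ^ (m + 1) = ((m : ℝ) + 1) ^ (m + 1) * (2 / ((m : ℝ) + 1) + 1) ^ (m + 1) := by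
            rw [← mul_pow]; congr 1; field_simp; ring
        _ ≤ _ := mul_le_mul_of_nonneg_left this (by positivity)
    have he2 : exp 1 ^ 2 ≤ 7.39 :=
      (pow_le_pow_left₀ (exp_pos 1).le Real.exp_one_lt_d9.le 2).trans (by norm_num)
    have h3 : (23 / 240 : ℝ) * exp 1 ^ 2 * ((m : ℝ) + 2) ^ 2 ≤ ((m : ℝ) + 1) ^ 2 := by
      nlinarith
    calc (23 / 240 : ℝ) ^ (m + 1) * (((m : ℝ) + 1 + 2) ^ (m + 1) * ((m : ℝ) + 1 + 1) ^ (m + 1 + 1))
        = (23 / 240 : ℝ) ^ m * ((23 / 240) * ((m : ℝ) + 3) ^ (m + 1) *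
            (((m : ℝ) + 2) ^ m * ((m : ℝ) + 2) ^ 2)) := by
          rw [show (m : ℝ) + 1 + 2 = m + 3 by ring, show (m : ℝ) + 1 + 1 = m + 2 by ring]; ring
      _ ≤ (23 / 240 : ℝ) ^ m * ((23 / 240) * (((m : ℝ) + 1) ^ (m + 1) * exp 1 ^ 2) *
            (((m : ℝ) + 2) ^ m * ((m : ℝ) + 2) ^ 2)) := by gcongr
      _ = (23 / 240 : ℝ) ^ m * (((m : ℝ) + 2) ^ m * ((m : ℝ) + 1) ^ (m + 1)) *
            ((23 / 240) * exp 1 ^ 2 * ((m : ℝ) + 2) ^ 2) := by ring
      _ < (m ! : ℝ) ^ 2 * ((23 / 240) * exp 1 ^ 2 * ((m : ℝ) + 2) ^ 2) :=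
          mul_lt_mul_of_pos_right ih (by positivity)
      _ ≤ (m ! : ℝ) ^ 2 * ((m : ℝ) + 1) ^ 2 := mul_le_mul_of_nonneg_left h3 (by positivity)
      _ = _ := by ring

/-- Translating the slab polytope does not change the isotropic constant. -/
lemma iso_translate (T : Matrix (Fin N) (Fin n) ℝ) (c : Fin n → ℝ)
    (hK : IsCompact (body T)) (hV : volume.real (body T) ≠ 0) :
    isotropicConst {x : Fin n → ℝ | ∀ i, |(T *ᵥ (x - c)) i| ≤ 1} =
      ((Matrix.of fun i j => (volume.real (body T))⁻¹ * ∫ x in body T, x i * x j).det /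
        volume.real (body T) ^ 2) ^ (1 / (2 * (n : ℝ))) := by
  set K := {x : Fin n → ℝ | ∀ i, |(T *ᵥ (x - c)) i| ≤ 1} with hKdef
  have hpre : (fun x : Fin n → ℝ => x + c) ⁻¹' K = body T := by
    ext x; simp [K, body]
  have hint : ∀ f : (Fin n → ℝ) → ℝ, ∫ x in K, f x = ∫ x in body T, f (x + c) := fun f => by
    rw [← hpre]
    exact ((measurePreserving_add_right volume c).setIntegral_preimage_emb
      (measurableEmbedding_addRight c) f K).symm
  have hvol : volume.real K = volume.real (body T) := by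
    rw [← hpre, measureReal_def, measureReal_def, measure_preimage_add_right]
  have hneg : ∀ i, ∫ x in body T, x i = 0 := by
    intro i
    have hpn : (fun x : Fin n → ℝ => -x) ⁻¹' body T = body T := by
      ext x; simp [body, Matrix.mulVec_neg]
    have h := (Measure.measurePreserving_neg (volume : Measure (Fin n → ℝ))).setIntegral_preimage_emb
      (MeasurableEquiv.neg _).measurableEmbedding (fun x => x i) (body T)
    rw [hpn] at h
    simp only [Pi.neg_apply, integral_neg] at h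
    linarith
  have hc : ∀ i, centroid K i = c i := fun i => by
    rw [centroid, hint, hvol]
    simp only [Pi.add_apply]
    rw [integral_add ((continuous_apply i).continuousOn.integrableOn_compact hK)
      (continuousOn_const.integrableOn_compact hK), hneg, setIntegral_const, zero_add, smul_eq_mul,
      inv_mul_cancel_left₀ hV]
  have hcov : cov K = Matrix.of fun i j => (volume.real (body T))⁻¹ * ∫ x in body T, x i * x j := by
    ext i j
    simp only [cov, Matrix.of_apply, hc, hint, hvol, Pi.add_apply, add_sub_cancel_right]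
  rw [isotropicConst, hcov, hvol]

/-- The main theorem. -/
theorem main (hn : 2 ≤ n ∧ 20 * N ≤ 23 * n ∨ 100 ≤ n ∧ 5 * N ≤ 8 * n) (T : Matrix (Fin N) (Fin n) ℝ) (c : Fin n → ℝ)
    (hb : Bornology.IsBounded {x : Fin n → ℝ | ∀ i, |(T *ᵥ (x - c)) i| ≤ 1})
    {u : Fin (n + 1) → Fin n → ℝ} (hu : AffineIndependent ℝ u) :
    isotropicConst {x : Fin n → ℝ | ∀ i, |(T *ᵥ (x - c)) i| ≤ 1} <
      isotropicConst (convexHull ℝ (Set.range u)) := by
  have hn0 : n ≠ 0 := by rcases hn with ⟨h, _⟩ | ⟨h, _⟩ <;> omega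
  -- the central body
  set K := body T with hKdef
  have hcl : IsClosed K := by
    simp only [K, body, ofPred_forall]
    exact isClosed_iInter fun i => isClosed_le (by fun_prop) continuous_const
  have hbd : Bornology.IsBounded K := by
    obtain ⟨R, hR⟩ := hb.subset_closedBall c
    refine (Metric.isBounded_closedBall (x := (0 : Fin n → ℝ)) (r := R)).subset fun x hx => ?_
    have := hR (show x + c ∈ {x : Fin n → ℝ | ∀ i, |(T *ᵥ (x - c)) i| ≤ 1} by
      intro i; simpa [body] using hx i)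
    simpa [Metric.mem_closedBall, dist_eq_norm] using this
  have hKc : IsCompact K := Metric.isCompact_of_isClosed_isBounded hcl hbd
  have hopen : IsOpen {x : Fin n → ℝ | ∀ i, |(T *ᵥ x) i| < 1} := by
    simp only [ofPred_forall]
    exact isOpen_iInter_of_finite fun i => isOpen_lt (by fun_prop) continuous_const
  have hVpos : 0 < volume.real K := by
    refine ENNReal.toReal_pos ?_ hKc.measure_lt_top.ne
    refine ((hopen.measure_pos volume ⟨0, fun i => by simp⟩).trans_le (measure_mono ?_)).ne'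
    intro x hx i
    simpa [body] using (hx i).le
  have hinj : ∀ x, T *ᵥ x = 0 → x = 0 := by
    intro x hx
    by_contra hne
    obtain ⟨R, hR⟩ := hbd.subset_closedBall 0
    have hxn : 0 < ‖x‖ := norm_pos_iff.2 hne
    have hm : ((|R| + 1) / ‖x‖) • x ∈ K := fun i => by
      simp [Matrix.mulVec_smul, hx]
    have := hR hm
    rw [mem_closedBall_zero_iff, norm_smul, Real.norm_eq_abs, abs_of_nonneg (by positivity),
      div_mul_cancel₀ _ hxn.ne'] at this
    linarith [le_abs_self R]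
  -- a square root of the Gram matrix
  obtain ⟨C, hC⟩ := CStarAlgebra.nonneg_iff_eq_star_mul_self.mp
    (Matrix.posSemidef_conjTranspose_mul_self T).nonneg
  have hG : Cᵀ * C = Tᵀ * T := by
    simpa [Matrix.star_eq_conjTranspose] using hC.symm
  have hCdet : C.det ≠ 0 := by
    intro h
    obtain ⟨x, hx, hx0⟩ := Matrix.exists_mulVec_eq_zero_iff.2 h
    refine hx (hinj x ?_)
    have : (T *ᵥ x) ⬝ᵥ (T *ᵥ x) = 0 := by
      rw [Matrix.dotProduct_mulVec, ← Matrix.mulVec_transpose, Matrix.mulVec_mulVec, ← hG,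
        ← Matrix.mulVec_mulVec, hx0, Matrix.mulVec_zero, zero_dotProduct]
    exact dotProduct_self_eq_zero.1 this
  set V := volume.real K with hV
  set M : Matrix (Fin n) (Fin n) ℝ := Matrix.of fun i j => V⁻¹ * ∫ x in K, x i * x j with hM
  have hint : ∀ i j, IntegrableOn (fun x : Fin n → ℝ => x i * x j) K := fun i j =>
    (by fun_prop : Continuous fun x : Fin n → ℝ => x i * x j).continuousOn.integrableOn_compact hKc
  have quad : ∀ a : Fin n → ℝ, a ⬝ᵥ (M *ᵥ a) = V⁻¹ * ∫ x in K, (a ⬝ᵥ x) ^ 2 := by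
    intro a
    have e : ∀ x : Fin n → ℝ, (a ⬝ᵥ x) ^ 2 = ∑ i, ∑ j, a i * a j * (x i * x j) := fun x => by
      rw [pow_two, dotProduct, Finset.sum_mul_sum]
      exact Finset.sum_congr rfl fun i _ => Finset.sum_congr rfl fun j _ => by ring
    simp only [e]
    rw [integral_finsetSum _ fun i _ => integrable_finsetSum _ fun j _ => (hint i j).const_mul _,
      Finset.mul_sum]
    simp only [dotProduct, Matrix.mulVec, M, Matrix.of_apply, Finset.mul_sum]
    refine Finset.sum_congr rfl fun i _ => ?_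
    rw [integral_finsetSum _ fun j _ => (hint i j).const_mul _, Finset.mul_sum]
    refine Finset.sum_congr rfl fun j _ => ?_
    rw [integral_const_mul]
    ring
  have hMpsd : M.PosSemidef := by
    refine Matrix.posSemidef_iff_dotProduct_mulVec.2 ⟨?_, fun a => ?_⟩
    · ext i j
      simp [M, mul_comm]
    · rw [star_trivial, quad]
      exact mul_nonneg (inv_nonneg.2 hVpos.le) (integral_nonneg fun x => sq_nonneg _)
  have hmid : ∀ x ∈ K, ∀ y ∈ K, (1 / 2 : ℝ) • (x + y) ∈ K := fun x hx y hy i => by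
    have h1 := abs_le.1 (hx i)
    have h2 := abs_le.1 (hy i)
    simp only [Matrix.mulVec_smul, Matrix.mulVec_add, Pi.add_apply, Pi.smul_apply, Pi.zero_apply,
      add_zero, smul_eq_mul, abs_le] at h1 h2 ⊢
    constructor <;> linarith [h1.1, h1.2, h2.1, h2.2]
  have hsym : ∀ x ∈ K, -x ∈ K := fun x hx i => by
    simpa [Matrix.mulVec_neg, body] using hx i
  -- the covariance bound
  have htr : (C * M * Cᵀ).trace ≤ (N : ℝ) / 3 := by
    rw [Matrix.trace_mul_comm, ← Matrix.mul_assoc, hG, Matrix.mul_assoc, Matrix.trace_mul_comm,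
      Matrix.trace]
    have hd : ∀ i, Matrix.diag (T * M * Tᵀ) i = T i ⬝ᵥ (M *ᵥ T i) := fun i => by
      simp only [Matrix.diag_apply, Matrix.mul_apply, Matrix.transpose_apply, dotProduct,
        Matrix.mulVec, Finset.sum_mul, Finset.mul_sum]
      rw [Finset.sum_comm]
      exact Finset.sum_congr rfl fun _ _ => Finset.sum_congr rfl fun _ _ => by ring
    have hone : ∀ i, Matrix.diag (T * M * Tᵀ) i ≤ 1 / 3 := fun i => by
      rw [hd, quad]
      have h := second_moment_le (a := T i) hKc hmid hsym fun x hx => by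
        simpa [body, Matrix.mulVec] using hx i
      rw [← hV] at h
      calc V⁻¹ * ∫ x in K, (T i ⬝ᵥ x) ^ 2 ≤ V⁻¹ * (V / 3) :=
            mul_le_mul_of_nonneg_left h (inv_nonneg.2 hVpos.le)
        _ = 1 / 3 := by field_simp
    refine (Finset.sum_le_sum fun i _ => hone i).trans (le_of_eq ?_)
    rw [Finset.sum_const, Finset.card_univ, Fintype.card_fin, nsmul_eq_mul]
    ring
  have hS : (C * M * Cᵀ).PosSemidef := by
    simpa [Matrix.conjTranspose_eq_transpose_of_trivial] using hMpsd.mul_mul_conjTranspose_same C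
  have hdet : M.det * C.det ^ 2 ≤ ((N : ℝ) / (3 * n)) ^ n := by
    have h := det_le_trace hn0 hS
    rw [Matrix.det_mul, Matrix.det_mul, Matrix.det_transpose] at h
    calc M.det * C.det ^ 2 = C.det * M.det * C.det := by ring
      _ ≤ _ := h
      _ ≤ _ := by
        refine pow_le_pow_left₀ (div_nonneg ?_ (Nat.cast_nonneg n)) ?_ n
        · exact Finset.sum_nonneg fun i _ => hS.diag_nonneg
        · rw [← div_div (N : ℝ) 3]
          exact div_le_div_of_nonneg_right htr (Nat.cast_nonneg n)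
  have hsec := section_ge hCdet hG hKc.measure_lt_top.ne
  have hsec2 : (4 : ℝ) ^ n ≤ V ^ 2 * C.det ^ 2 := by
    have h2 := pow_le_pow_left₀ (by positivity) hsec 2
    rwa [mul_pow, sq_abs, ← hV, pow_right_comm, show (2 : ℝ) ^ 2 = 4 by norm_num] at h2
  rw [OneSym.simplex_value ((affineIndependent_iff_det u).1 hu), iso_translate T c hKc hVpos.ne']
  rw [← hM]
  refine Real.rpow_lt_rpow (div_nonneg hMpsd.det_nonneg (sq_nonneg _)) ?_ (by positivity)
  have hn' : (0 : ℝ) < n := by exact_mod_cast Nat.pos_of_ne_zero hn0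
  have hbound : M.det / V ^ 2 ≤ ((N : ℝ) / (12 * n)) ^ n := by
    rw [div_le_iff₀ (by positivity)]
    refine le_of_mul_le_mul_right ?_ (by positivity : 0 < C.det ^ 2)
    calc M.det * C.det ^ 2 ≤ ((N : ℝ) / (3 * n)) ^ n := hdet
      _ = ((N : ℝ) / (12 * n)) ^ n * 4 ^ n := by rw [← mul_pow]; congr 1; field_simp; ring
      _ ≤ ((N : ℝ) / (12 * n)) ^ n * (V ^ 2 * C.det ^ 2) :=
          mul_le_mul_of_nonneg_left hsec2 (by positivity)
      _ = _ := by ring
  refine hbound.trans_lt ?_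
  show _ < sval n
  rcases hn with ⟨h1, h2⟩ | ⟨h1, h2⟩
  · refine lt_of_le_of_lt (pow_le_pow_left₀ (by positivity) ?_ n) (num_small n h1)
    have : (20 : ℝ) * N ≤ 23 * n := by exact_mod_cast h2
    rw [div_le_iff₀ (by positivity)]
    linarith
  · refine lt_of_le_of_lt (pow_le_pow_left₀ (by positivity) ?_ n) (num_large h1)
    have : (5 : ℝ) * N ≤ 8 * n := by exact_mod_cast h2
    rw [div_le_iff₀ (by positivity)]
    linarith

end Vale.Agent.P254.Slabs
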