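import Vale.Agent.P074.PL

/-!
P254: the marginals of a convex symmetric body inside a slab have second moment at most one third
of the squared half-width.
-/

namespace Vale.Agent.P254.Slabs

open MeasureTheory Set Filter Topology
open scoped ENNReal Matrix

variable {n : ℕ}

/-- Brunn's inequality at the midpoint, in product form. -/
lemma vol_mid {A B C : Set (Fin n → ℝ)} (hA : MeasurableSet A) (hB : MeasurableSet B)
    (hC : MeasurableSet C) (h : ∀ x ∈ A, ∀ y ∈ B, (1 / 2 : ℝ) • (x + y) ∈ C) :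
    volume A * volume B ≤ volume C ^ 2 := by
  have := P074.pl_pi n (f := A.indicator 1) (g := B.indicator 1) (h := C.indicator 1)
    (measurable_one.indicator hA) (measurable_one.indicator hB) (measurable_one.indicator hC)
    fun x y => by
      by_cases hx : x ∈ A
      · by_cases hy : y ∈ B
        · simp only [indicator_of_mem hx, indicator_of_mem hy, indicator_of_mem (h x hx y hy),
            Pi.one_apply, one_pow, mul_one, le_refl]
        · simp [indicator_of_notMem hy]
      · simp [indicator_of_notMem hx]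
  simpa [lintegral_indicator_one hA, lintegral_indicator_one hB, lintegral_indicator_one hC]
    using this

lemma le_of_sq_le' {a b : ℝ≥0∞} (h : a ^ 2 ≤ b ^ 2) : a ≤ b :=
  (ENNReal.pow_le_pow_left_iff two_ne_zero).1 h

/-- The thickened slice of `K` at level `t` of the functional `a`. -/
def slice (K : Set (Fin n → ℝ)) (a v : Fin n → ℝ) (t : ℝ) : Set (Fin n → ℝ) :=
  {x | |a ⬝ᵥ x| ≤ 1 / 2 ∧ x + (t - a ⬝ᵥ x) • v ∈ K}

variable {K : Set (Fin n → ℝ)} {a v : Fin n → ℝ}

lemma measurableSet_graph (hK : MeasurableSet K) :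
    MeasurableSet {p : ℝ × (Fin n → ℝ) | p.2 ∈ slice K a v p.1} := by
  show MeasurableSet ({p : ℝ × (Fin n → ℝ) | |a ⬝ᵥ p.2| ≤ 1 / 2} ∩
    (fun p : ℝ × (Fin n → ℝ) => p.2 + (p.1 - a ⬝ᵥ p.2) • v) ⁻¹' K)
  refine (measurableSet_le ?_ measurable_const).inter (hK.preimage ?_)
  · exact (by fun_prop : Continuous fun p : ℝ × (Fin n → ℝ) => |a ⬝ᵥ p.2|).measurable
  · exact (by fun_prop :
      Continuous fun p : ℝ × (Fin n → ℝ) => p.2 + (p.1 - a ⬝ᵥ p.2) • v).measurable

lemma measurableSet_slice (hK : MeasurableSet K) (t : ℝ) : MeasurableSet (slice K a v t) :=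
  (measurableSet_graph hK).preimage measurable_prodMk_left

lemma measurable_vol_slice (hK : MeasurableSet K) :
    Measurable fun t => volume (slice K a v t) :=
  measurable_measure_prodMk_left (measurableSet_graph hK)

lemma slice_mid (hK : MeasurableSet K)
    (hmid : ∀ x ∈ K, ∀ y ∈ K, (1 / 2 : ℝ) • (x + y) ∈ K) (p q : ℝ) :
    volume (slice K a v p) * volume (slice K a v q) ≤ volume (slice K a v ((p + q) / 2)) ^ 2 := by
  refine vol_mid (measurableSet_slice hK p) (measurableSet_slice hK q)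
    (measurableSet_slice hK _) fun x hx y hy => ⟨?_, ?_⟩
  · rw [dotProduct_smul, dotProduct_add, smul_eq_mul, abs_le]
    have h1 := abs_le.1 hx.1
    have h2 := abs_le.1 hy.1
    constructor <;> linarith [h1.1, h1.2, h2.1, h2.2]
  · have h := hmid _ hx.2 _ hy.2
    convert h using 1
    rw [dotProduct_smul, dotProduct_add, smul_eq_mul]
    module

lemma slice_neg (hsym : ∀ x ∈ K, -x ∈ K) (t : ℝ) :
    volume (slice K a v (-t)) = volume (slice K a v t) := by
  have h : slice K a v (-t) = -slice K a v t := by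
    ext x
    simp only [slice, Set.mem_neg, mem_ofPred_eq, dotProduct_neg, abs_neg]
    refine and_congr_right fun _ => ?_
    have e : -x + (t - -(a ⬝ᵥ x)) • v = -(x + (-t - a ⬝ᵥ x) • v) := by module
    rw [e]
    exact ⟨fun h => hsym _ h, fun h => by simpa using hsym _ h⟩
  rw [h, Measure.measure_neg]

/-- Slices are monotone along every dyadic contraction. -/
lemma slice_dyadic (hK : MeasurableSet K)
    (hmid : ∀ x ∈ K, ∀ y ∈ K, (1 / 2 : ℝ) • (x + y) ∈ K) (hsym : ∀ x ∈ K, -x ∈ K)
    (t : ℝ) (m : ℕ) : ∀ j : ℕ, j ≤ 2 ^ m →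
      volume (slice K a v t) ≤ volume (slice K a v ((j : ℝ) / 2 ^ m * t)) := by
  have zero : volume (slice K a v t) ≤ volume (slice K a v 0) := by
    refine le_of_sq_le' ?_
    have := slice_mid (a := a) (v := v) hK hmid t (-t)
    rwa [slice_neg hsym, add_neg_cancel, zero_div, ← pow_two] at this
  induction m with
  | zero =>
    intro j hj
    rcases Nat.le_one_iff_eq_zero_or_eq_one.1 (by simpa using hj) with rfl | rfl
    · simpa using zero
    · simp
  | succ m ih =>
    intro j hj
    have h2 : 2 ^ (m + 1) = 2 * 2 ^ m := by ring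
    set p := j / 2 with hp
    set q := j - j / 2 with hq
    have hpq : j = p + q := by omega
    refine le_of_sq_le' ((pow_two _).le.trans ?_)
    refine (mul_le_mul' (ih p (by omega)) (ih q (by omega))).trans ?_
    refine (slice_mid hK hmid _ _).trans (le_of_eq ?_)
    congr 3
    rw [hpq, pow_succ]
    push_cast
    ring

/-- The slices reproduce integrals of functions of `a ⬝ᵥ x`. -/
lemma lintegral_slice (hK : MeasurableSet K) (hv : a ⬝ᵥ v = 1) {h : ℝ → ℝ≥0∞}
    (hh : Measurable h) :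
    ∫⁻ t, h t * volume (slice K a v t) = ∫⁻ x in K, h (a ⬝ᵥ x) := by
  have hd : Measurable fun x : Fin n → ℝ => a ⬝ᵥ x :=
    (by fun_prop : Continuous fun x : Fin n → ℝ => a ⬝ᵥ x).measurable
  have hg := measurableSet_graph (a := a) (v := v) hK
  let F : ℝ × (Fin n → ℝ) → ℝ≥0∞ :=
    fun p => {p : ℝ × (Fin n → ℝ) | p.2 ∈ slice K a v p.1}.indicator (fun p => h p.1) p
  have hF : Measurable F := (hh.comp measurable_fst).indicator hg
  calc ∫⁻ t, h t * volume (slice K a v t)
      = ∫⁻ t, ∫⁻ x, F (t, x) := by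
        refine lintegral_congr fun t => ?_
        rw [← lintegral_indicator_const (measurableSet_slice hK t)]
        rfl
    _ = ∫⁻ x, ∫⁻ t, F (t, x) := lintegral_lintegral_swap (f := fun t x => F (t, x)) hF.aemeasurable
    _ = ∫⁻ x, ∫⁻ r, F (r + a ⬝ᵥ x, x) :=
        lintegral_congr fun x => (lintegral_add_right_eq_self (fun t => F (t, x)) _).symm
    _ = ∫⁻ r, ∫⁻ x, F (r + a ⬝ᵥ x, x) :=
        lintegral_lintegral_swap (f := fun x r => F (r + a ⬝ᵥ x, x))
          (hF.comp ((measurable_snd.add (hd.comp measurable_fst)).prodMk measurable_fst)).aemeasurable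
    _ = ∫⁻ r, ∫⁻ y, F (r + a ⬝ᵥ (y + -(r • v)), y + -(r • v)) :=
        lintegral_congr fun r =>
          (lintegral_add_right_eq_self (fun x => F (r + a ⬝ᵥ x, x)) (-(r • v))).symm
    _ = ∫⁻ r, ∫⁻ y, K.indicator (fun y => h (a ⬝ᵥ y)) y *
          (Icc (a ⬝ᵥ y - 1 / 2) (a ⬝ᵥ y + 1 / 2)).indicator 1 r := by
        refine lintegral_congr fun r => lintegral_congr fun y => ?_
        have e1 : r + a ⬝ᵥ (y + -(r • v)) = a ⬝ᵥ y := by
          simp [dotProduct_add, dotProduct_neg, dotProduct_smul, hv]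
        have e2 : (a ⬝ᵥ y, y + -(r • v)) ∈ {p : ℝ × (Fin n → ℝ) | p.2 ∈ slice K a v p.1} ↔
            r ∈ Icc (a ⬝ᵥ y - 1 / 2) (a ⬝ᵥ y + 1 / 2) ∧ y ∈ K := by
          have e3 : a ⬝ᵥ (y + -(r • v)) = a ⬝ᵥ y - r := by linarith
          simp only [slice, mem_ofPred_eq, e3, abs_le, mem_Icc]
          refine and_congr ⟨fun h => ⟨by linarith [h.1, h.2], by linarith [h.1, h.2]⟩,
            fun h => ⟨by linarith [h.1, h.2], by linarith [h.1, h.2]⟩⟩ (Eq.to_iff ?_)
          congr 1
          module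
        rw [e1]
        simp only [F]
        by_cases hy : y ∈ K
        · by_cases hr : r ∈ Icc (a ⬝ᵥ y - 1 / 2) (a ⬝ᵥ y + 1 / 2)
          · rw [indicator_of_mem (e2.2 ⟨hr, hy⟩), indicator_of_mem hy, indicator_of_mem hr]
            simp
          · rw [indicator_of_notMem (fun h => hr (e2.1 h).1), indicator_of_notMem hr, mul_zero]
        · rw [indicator_of_notMem (fun h => hy (e2.1 h).2), indicator_of_notMem hy, zero_mul]
    _ = ∫⁻ y, ∫⁻ r, K.indicator (fun y => h (a ⬝ᵥ y)) y *
          (Icc (a ⬝ᵥ y - 1 / 2) (a ⬝ᵥ y + 1 / 2)).indicator 1 r := by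
        refine lintegral_lintegral_swap ?_
        refine (((hh.comp hd).indicator hK).comp measurable_snd |>.mul ?_).aemeasurable
        have hs : MeasurableSet {p : ℝ × (Fin n → ℝ) |
            a ⬝ᵥ p.2 - 1 / 2 ≤ p.1 ∧ p.1 ≤ a ⬝ᵥ p.2 + 1 / 2} :=
          (measurableSet_le ((hd.comp measurable_snd).sub_const _) measurable_fst).inter
            (measurableSet_le measurable_fst ((hd.comp measurable_snd).add_const _))
        exact (measurable_const (a := (1 : ℝ≥0∞))).indicator hs
    _ = ∫⁻ x in K, h (a ⬝ᵥ x) := by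
        rw [← lintegral_indicator hK]
        refine lintegral_congr fun y => ?_
        rw [lintegral_const_mul _ (measurable_one.indicator measurableSet_Icc),
          lintegral_indicator_one measurableSet_Icc, Real.volume_Icc]
        norm_num

/-- At least the proportion `s` of `K` lies in the slab of half-width `s`. -/
lemma slab_ge (hK : IsCompact K) (hmid : ∀ x ∈ K, ∀ y ∈ K, (1 / 2 : ℝ) • (x + y) ∈ K)
    (hsym : ∀ x ∈ K, -x ∈ K) (hb : ∀ x ∈ K, |a ⬝ᵥ x| ≤ 1) (hv : a ⬝ᵥ v = 1)
    {s : ℝ} (hs0 : 0 ≤ s) (hs1 : s ≤ 1) :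
    s * volume.real K ≤ volume.real (K ∩ {x | |a ⬝ᵥ x| ≤ s}) := by
  have hKm := hK.measurableSet
  have hd : Continuous fun x : Fin n → ℝ => |a ⬝ᵥ x| := by fun_prop
  have hset : ∀ u : ℝ, ∫⁻ t in Icc (-u) u, volume (slice K a v t) =
      volume (K ∩ {x | |a ⬝ᵥ x| ≤ u}) := by
    intro u
    have h := lintegral_slice hKm hv (h := (Icc (-u) u).indicator 1)
      (measurable_one.indicator measurableSet_Icc)
    have hm : MeasurableSet {x : Fin n → ℝ | |a ⬝ᵥ x| ≤ u} :=
      measurableSet_le hd.measurable measurable_const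
    have e : (fun x => (Icc (-u) u).indicator (1 : ℝ → ℝ≥0∞) (a ⬝ᵥ x)) =
        {x : Fin n → ℝ | |a ⬝ᵥ x| ≤ u}.indicator 1 := by
      ext x; simp [indicator_apply, abs_le]
    rw [e, lintegral_indicator_one hm, Measure.restrict_apply hm] at h
    rw [inter_comm, ← h, ← lintegral_indicator measurableSet_Icc]
    refine lintegral_congr fun t => ?_
    by_cases ht : t ∈ Icc (-u) u <;> simp [ht]
  have dy : ∀ m j : ℕ, j ≤ 2 ^ m → (j : ℝ) / 2 ^ m * volume.real K ≤
      volume.real (K ∩ {x | |a ⬝ᵥ x| ≤ (j : ℝ) / 2 ^ m}) := by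
    intro m j hj
    rcases Nat.eq_zero_or_pos j with rfl | hj0
    · simp
    set d := (j : ℝ) / 2 ^ m with hd'
    have hd0 : 0 < d := by positivity
    have hfull : K ∩ {x | |a ⬝ᵥ x| ≤ 1} = K := inter_eq_left.2 hb
    have key : ENNReal.ofReal d * volume K ≤ volume (K ∩ {x | |a ⬝ᵥ x| ≤ d}) := by
      have h1 : volume K = ∫⁻ t in Icc (-1) 1, volume (slice K a v t) := by rw [hset 1, hfull]
      rw [← hset d, h1]
      calc ENNReal.ofReal d * ∫⁻ t in Icc (-1) 1, volume (slice K a v t)
          ≤ ENNReal.ofReal d * ∫⁻ t in Icc (-1) 1, volume (slice K a v (d * t)) := by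
            refine mul_le_mul' le_rfl (lintegral_mono fun t => ?_)
            exact slice_dyadic hKm hmid hsym t m j hj
        _ = ∫⁻ t in Icc (-d) d, volume (slice K a v t) := by
            have hmap := Real.smul_map_volume_mul_left hd0.ne'
            rw [abs_of_pos hd0] at hmap
            conv_rhs => rw [← hmap]
            rw [Measure.restrict_smul, lintegral_smul_measure,
              Measure.restrict_map (measurable_const_mul d) measurableSet_Icc,
              lintegral_map (measurable_vol_slice hKm) (measurable_const_mul d),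
              preimage_const_mul_Icc₀ _ _ hd0]
            simp [neg_div, hd0.ne']
    have := ENNReal.toReal_mono ((measure_mono inter_subset_left).trans_lt
      hK.measure_lt_top).ne key
    rwa [ENNReal.toReal_mul, ENNReal.toReal_ofReal hd0.le] at this
  have hlim : Tendsto (fun m : ℕ => (s - (1 / 2) ^ m) * volume.real K) atTop
      (𝓝 (s * volume.real K)) := by
    simpa using ((tendsto_pow_atTop_nhds_zero_of_lt_one (by norm_num : (0 : ℝ) ≤ 1 / 2)
      (by norm_num)).const_sub s).mul_const (volume.real K)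
  refine le_of_tendsto' hlim fun m => ?_
  have h2 : (0 : ℝ) < 2 ^ m := by positivity
  set j := ⌊s * 2 ^ m⌋₊ with hj
  have hj1 : (j : ℝ) ≤ s * 2 ^ m := Nat.floor_le (by positivity)
  have hj2 : s * 2 ^ m < j + 1 := Nat.lt_floor_add_one _
  have hj3 : j ≤ 2 ^ m := by
    have : (j : ℝ) ≤ ((2 ^ m : ℕ) : ℝ) := by push_cast; nlinarith
    exact_mod_cast this
  calc (s - (1 / 2) ^ m) * volume.real K ≤ (j : ℝ) / 2 ^ m * volume.real K := by
        refine mul_le_mul_of_nonneg_right ?_ measureReal_nonneg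
        rw [div_pow, one_pow, le_div_iff₀ h2, sub_mul, one_div_mul_cancel h2.ne']
        linarith
    _ ≤ volume.real (K ∩ {x | |a ⬝ᵥ x| ≤ (j : ℝ) / 2 ^ m}) := dy m j hj3
    _ ≤ volume.real (K ∩ {x | |a ⬝ᵥ x| ≤ s}) := by
        refine measureReal_mono ?_ ((measure_mono inter_subset_left).trans_lt
          hK.measure_lt_top).ne
        exact inter_subset_inter_right _ fun x (hx : |a ⬝ᵥ x| ≤ _) =>
          hx.trans ((div_le_iff₀ h2).2 hj1)

/-- The second moment bound. -/
lemma second_moment_le (hK : IsCompact K) (hmid : ∀ x ∈ K, ∀ y ∈ K, (1 / 2 : ℝ) • (x + y) ∈ K)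
    (hsym : ∀ x ∈ K, -x ∈ K) (hb : ∀ x ∈ K, |a ⬝ᵥ x| ≤ 1) :
    ∫ x in K, (a ⬝ᵥ x) ^ 2 ≤ volume.real K / 3 := by
  rcases eq_or_ne a 0 with rfl | ha
  · simp only [zero_dotProduct, ne_eq, OfNat.ofNat_ne_zero, not_false_eq_true, zero_pow,
      integral_zero]
    positivity
  set v := (a ⬝ᵥ a)⁻¹ • a with hv'
  have haa : a ⬝ᵥ a ≠ 0 := fun h => ha (dotProduct_self_eq_zero.1 h)
  have hv : a ⬝ᵥ v = 1 := by rw [hv', dotProduct_smul, smul_eq_mul, inv_mul_cancel₀ haa]
  have hd : Continuous fun x : Fin n → ℝ => (a ⬝ᵥ x) ^ 2 := by fun_prop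
  have hnn : 0 ≤ᵐ[volume.restrict K] fun x => (a ⬝ᵥ x) ^ 2 := .of_forall fun x => sq_nonneg _
  set V := volume.real K with hV
  have hfin : IsFiniteMeasure (volume.restrict K) :=
    isFiniteMeasure_restrict.2 hK.measure_lt_top.ne
  have hint : IntegrableOn (fun x => (a ⬝ᵥ x) ^ 2) K := hd.continuousOn.integrableOn_compact hK
  rw [hint.integral_eq_integral_meas_lt hnn]
  have htail : ∀ t : ℝ, 0 < t → (volume.restrict K).real {x | t < (a ⬝ᵥ x) ^ 2} ≤
      (Ioc (0 : ℝ) 1).indicator (fun t => (1 - Real.sqrt t) * V) t := by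
    intro t ht
    rw [measureReal_restrict_apply (measurableSet_lt measurable_const hd.measurable)]
    by_cases h1 : t ≤ 1
    · rw [indicator_of_mem (show t ∈ Ioc (0 : ℝ) 1 from ⟨ht, h1⟩)]
      have hm : MeasurableSet (K ∩ {x | |a ⬝ᵥ x| ≤ Real.sqrt t}) :=
        hK.measurableSet.inter (measurableSet_le
          (by fun_prop : Continuous fun x : Fin n → ℝ => |a ⬝ᵥ x|).measurable measurable_const)
      have e : {x | t < (a ⬝ᵥ x) ^ 2} ∩ K = K \ (K ∩ {x | |a ⬝ᵥ x| ≤ Real.sqrt t}) := by
        ext x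
        simp only [mem_inter_iff, mem_ofPred_eq, Set.mem_sdiff, not_and, not_le]
        rw [← Real.sqrt_sq_eq_abs, Real.sqrt_lt_sqrt_iff ht.le]
        tauto
      rw [e, measureReal_sdiff inter_subset_left hm hK.measure_lt_top.ne]
      have := slab_ge hK hmid hsym hb hv (Real.sqrt_nonneg t)
        (Real.sqrt_le_one.2 h1)
      rw [← hV] at this ⊢
      linarith
    · have : {x | t < (a ⬝ᵥ x) ^ 2} ∩ K = ∅ := by
        ext x
        simp only [mem_inter_iff, mem_ofPred_eq, mem_empty_iff_false, iff_false, not_and]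
        intro hx hxK
        nlinarith [hb x hxK, abs_nonneg (a ⬝ᵥ x), sq_abs (a ⬝ᵥ x)]
      simp [this, indicator_apply, h1]
  have hc : Continuous fun t : ℝ => (1 - Real.sqrt t) * V := by fun_prop
  calc ∫ t in Ioi (0 : ℝ), (volume.restrict K).real {x | t < (a ⬝ᵥ x) ^ 2}
      ≤ ∫ t in Ioi (0 : ℝ), (Ioc (0 : ℝ) 1).indicator (fun t => (1 - Real.sqrt t) * V) t := by
        refine integral_mono_of_nonneg (.of_forall fun t => measureReal_nonneg) ?_ ?_
        · exact ((integrable_indicator_iff measurableSet_Ioc).2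
            (hc.continuousOn.integrableOn_Icc.mono_set Ioc_subset_Icc_self)).integrableOn
        · exact (ae_restrict_iff' measurableSet_Ioi).2 (.of_forall htail)
    _ = ∫ t in (0 : ℝ)..1, (1 - Real.sqrt t) * V := by
        rw [setIntegral_indicator measurableSet_Ioc, intervalIntegral.integral_of_le zero_le_one,
          inter_eq_right.2 Ioc_subset_Ioi_self]
    _ = V / 3 := by
        rw [intervalIntegral.integral_mul_const, intervalIntegral.integral_sub
          intervalIntegrable_const (Real.continuous_sqrt.intervalIntegrable _ _)]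
        simp only [Real.sqrt_eq_rpow, intervalIntegral.integral_const, smul_eq_mul]
        rw [integral_rpow (Or.inl (by norm_num))]
        norm_num
        ring

end Vale.Agent.P254.Slabs
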