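import Vale.Agent.P074.PL
import Vale.Agent.P254.Hull

/-!
P254: a slab carries at least the weight of the Gaussian of the same mass, for even log-concave
weights (Vaaler's comparison, one coordinate at a time).
-/

namespace Vale.Agent.P254.Slabs

open MeasureTheory Set Filter Topology Real
open scoped ENNReal Matrix

variable {n : ℕ}

/-- The Gaussian profile of total mass two. -/
noncomputable def phi (t : ℝ) : ℝ := exp (-(π / 4) * t ^ 2)

lemma continuous_phi : Continuous phi := by unfold phi; fun_prop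

lemma phi_neg (t : ℝ) : phi (-t) = phi t := by simp [phi]

lemma phi_nonneg (t : ℝ) : 0 ≤ phi t := (exp_pos _).le

lemma phi_le_one (t : ℝ) : phi t ≤ 1 := exp_le_one_iff.2 (by nlinarith [sq_nonneg t, Real.pi_pos])

lemma phi_antitone : AntitoneOn phi (Ici 0) := by
  intro a ha b _ hab
  refine exp_le_exp.2 ?_
  nlinarith [Real.pi_pos, mem_Ici.1 ha, pow_le_pow_left₀ (mem_Ici.1 ha) hab 2]

lemma phi_mid (p q : ℝ) : phi p * phi q ≤ phi ((p + q) / 2) ^ 2 := by
  simp only [phi, ← exp_add, pow_two, ← exp_add]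
  exact exp_le_exp.2 (by nlinarith [Real.pi_pos, sq_nonneg (p - q)])

lemma sum_phi_le {h : ℝ} (hh : 0 < h) (M : ℕ) :
    ∑ j ∈ Finset.range M, phi (j * h) ≤ 1 + 1 / h := by
  rcases M with _ | M
  · simp; positivity
  rw [Finset.sum_range_succ']
  have ha : AntitoneOn (fun x => phi (x * h)) (Icc (0 : ℝ) (0 + (M : ℝ))) := fun a ha b hb hab =>
    phi_antitone (mul_nonneg ha.1 hh.le) (mul_nonneg hb.1 hh.le)
      (mul_le_mul_of_nonneg_right hab hh.le)
  have h1 := ha.sum_le_integral
  simp only [zero_add] at h1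
  rw [intervalIntegral.integral_comp_mul_right phi hh.ne', zero_mul] at h1
  have hb : ∫ x in (0 : ℝ)..((M : ℝ) * h), phi x ≤ 1 := by
    rw [intervalIntegral.integral_of_le (by positivity)]
    have hi : Integrable phi := integrable_exp_neg_mul_sq (by positivity)
    refine (setIntegral_mono_set hi.integrableOn (.of_forall fun x => phi_nonneg x)
      (Ioc_subset_Ioi_self.eventuallyLE)).trans (le_of_eq ?_)
    unfold phi
    rw [integral_gaussian_Ioi, show π / (π / 4) = 2 ^ 2 by field_simp; ring,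
      Real.sqrt_sq (by norm_num)]
    norm_num
  have h2 : h⁻¹ • (∫ x in (0 : ℝ)..((M : ℝ) * h), phi x) ≤ 1 / h := by
    rw [smul_eq_mul, one_div]
    exact mul_le_of_le_one_right (inv_nonneg.2 hh.le) hb
  have h0 : phi (((0 : ℕ) : ℝ) * h) ≤ 1 := phi_le_one _
  push_cast at h1 h0 ⊢
  linarith

/-- The bathtub principle for decreasing weights. -/
lemma bathtub {u D : ℕ → ℝ} (hu0 : ∀ j, 0 ≤ u j) (hu1 : ∀ j, u j ≤ 1) (hD : Antitone D)
    (hD0 : ∀ j, 0 ≤ D j) {m : ℕ} (hsum : ∀ M, ∑ j ∈ Finset.range M, u j ≤ m + 1) (M : ℕ) :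
    ∑ j ∈ Finset.range M, u j * D j ≤ ∑ j ∈ Finset.range (m + 1), D j := by
  refine (Finset.sum_le_sum_of_subset_of_nonneg
    (Finset.range_mono (Nat.le_add_left M (m + 1))) fun j _ _ => mul_nonneg (hu0 j) (hD0 j)).trans ?_
  rw [Finset.sum_range_add]
  have h1 : ∑ j ∈ Finset.range (m + 1), (u j * D j - D j) ≤
      ∑ j ∈ Finset.range (m + 1), (u j * D m - D m) := Finset.sum_le_sum fun j hj => by
    have := hD (Nat.le_of_lt_succ (Finset.mem_range.1 hj))
    nlinarith [hu1 j]
  have h2 : ∑ j ∈ Finset.range M, u (m + 1 + j) * D (m + 1 + j) ≤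
      ∑ j ∈ Finset.range M, u (m + 1 + j) * D m := Finset.sum_le_sum fun j _ =>
    mul_le_mul_of_nonneg_left (hD (by omega)) (hu0 _)
  have h3 := hsum (m + 1 + M)
  rw [Finset.sum_range_add] at h3
  rw [Finset.sum_sub_distrib, Finset.sum_sub_distrib, Finset.sum_const, Finset.card_range,
    nsmul_eq_mul, ← Finset.sum_mul] at h1
  rw [← Finset.sum_mul] at h2
  push_cast at h1
  nlinarith [hD0 m]

/-- The comparison on a half line for a measure with decreasing cells. -/
lemma half_peak (ν : Measure ℝ) [NullSingletonClass ν] (hfin : ∀ a b : ℝ, ν (Icc a b) ≠ ⊤)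
    (hmono : ∀ δ c' c : ℝ, 0 ≤ δ → 0 ≤ c' → c' ≤ c →
      ν (Icc (c - δ) (c + δ)) ≤ ν (Icc (c' - δ) (c' + δ))) :
    ∫⁻ t in Ici 0, ENNReal.ofReal (phi t) ∂ν ≤ ν (Icc 0 1) := by
  have hm : ∀ m : ℕ, 0 < m → ∫⁻ t in Ici 0, ENNReal.ofReal (phi t) ∂ν ≤
      ENNReal.ofReal ((1 + 1 / (m : ℝ)) * ν.real (Icc 0 1)) := by
    intro m hm
    have hm' : (0 : ℝ) < m := by exact_mod_cast hm
    set h : ℝ := 1 / m with hhdef
    have hh : 0 < h := by positivity
    set C : ℕ → Set ℝ := fun j => Ico (j * h) ((j + 1) * h) with hC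
    set D : ℕ → ℝ := fun j => ν.real (C j) with hD
    have hCI : ∀ j, ν (C j) = ν (Icc ((j : ℝ) * h) ((j + 1) * h)) := fun j =>
      measure_congr Ico_ae_eq_Icc
    have hCne : ∀ j, ν (C j) ≠ ⊤ := fun j => hCI j ▸ hfin _ _
    have hant : Antitone D := antitone_nat_of_succ_le fun j => by
      refine ENNReal.toReal_mono (hCne j) ?_
      rw [hCI, hCI]
      have := hmono (h / 2) (((j : ℝ) + 1 / 2) * h) (((j : ℝ) + 3 / 2) * h) (by positivity)
        (by positivity) (by nlinarith)
      convert this using 3 <;> push_cast <;> ring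
    have hcover : Ici (0 : ℝ) ⊆ ⋃ j, C j := fun t ht => by
      refine mem_iUnion.2 ⟨⌊t / h⌋₊, ?_, ?_⟩
      · exact (le_div_iff₀ hh).1 (Nat.floor_le (div_nonneg ht hh.le))
      · exact (div_lt_iff₀ hh).1 (Nat.lt_floor_add_one _)
    have hdisj : Pairwise (Function.onFun Disjoint C) := fun i j hij => by
      refine Set.disjoint_left.2 fun t hi hj => ?_
      have key : ∀ a b : ℕ, a < b → t ∈ C a → t ∈ C b → False := fun a b hab ha hb => by
        have : ((a : ℝ) + 1) * h ≤ (b : ℝ) * h := by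
          refine mul_le_mul_of_nonneg_right ?_ hh.le
          exact_mod_cast hab
        exact absurd (ha.2.trans_le (this.trans hb.1)) (lt_irrefl t)
      rcases lt_or_gt_of_ne hij with hlt | hlt
      · exact key i j hlt hi hj
      · exact key j i hlt hj hi
    have hcell : ∀ j, ∫⁻ t in C j, ENNReal.ofReal (phi t) ∂ν ≤
        ENNReal.ofReal (phi (j * h) * D j) := fun j => by
      refine (setLIntegral_mono measurable_const fun t ht => ENNReal.ofReal_le_ofReal
        (phi_antitone (mem_Ici.2 (by positivity)) (mem_Ici.2 ((by positivity : (0 : ℝ) ≤ j * h).trans ht.1))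
          ht.1)).trans (le_of_eq ?_)
      rw [setLIntegral_const, ENNReal.ofReal_mul (phi_nonneg _)]
      congr 1
      exact (ENNReal.ofReal_toReal (hCne j)).symm
    refine (lintegral_mono_set hcover).trans ?_
    rw [lintegral_iUnion (fun j => measurableSet_Ico) hdisj]
    refine (ENNReal.tsum_le_tsum hcell).trans ?_
    refine ENNReal.summable.tsum_le_of_sum_range_le fun M => ?_
    rw [← ENNReal.ofReal_sum_of_nonneg fun j _ => mul_nonneg (phi_nonneg _) measureReal_nonneg]
    refine ENNReal.ofReal_le_ofReal ?_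
    refine (bathtub (u := fun j => phi (j * h)) (D := D) (m := m) (fun j => phi_nonneg _)
      (fun j => phi_le_one _) hant (fun j => measureReal_nonneg) (fun M => ?_) M).trans ?_
    · refine (sum_phi_le hh M).trans (le_of_eq ?_)
      rw [hhdef, one_div_one_div]; ring
    · rw [Finset.sum_range_succ]
      have hU : ∑ j ∈ Finset.range m, D j ≤ ν.real (Icc 0 1) := by
        rw [hD, ← measureReal_biUnion_finset (fun i _ j _ hij => hdisj hij)
          (fun j _ => measurableSet_Ico) (fun j _ => hCne j)]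
        refine measureReal_mono (fun t ht => ?_) (hfin 0 1)
        obtain ⟨j, hj, hjt⟩ := mem_iUnion₂.1 ht
        have hjm : ((j : ℝ) + 1) * h ≤ 1 := by
          rw [hhdef, ← le_div_iff₀ hh, one_div_one_div]
          exact_mod_cast Finset.mem_range.1 hj
        exact ⟨(by positivity : (0 : ℝ) ≤ j * h).trans hjt.1, hjt.2.le.trans hjm⟩
      have hDm : (m : ℝ) * D m ≤ ∑ j ∈ Finset.range m, D j := by
        have : ∑ _j ∈ Finset.range m, D m ≤ ∑ j ∈ Finset.range m, D j :=
          Finset.sum_le_sum fun j hj => hant (Finset.mem_range.1 hj).le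
        simpa using this
      have : D m ≤ 1 / (m : ℝ) * ν.real (Icc 0 1) := by
        rw [div_mul_eq_mul_div, one_mul, le_div_iff₀ hm']
        linarith
      linarith
  have hlim : Tendsto (fun m : ℕ => ENNReal.ofReal ((1 + 1 / (m : ℝ)) * ν.real (Icc 0 1))) atTop
      (𝓝 (ν (Icc 0 1))) := by
    rw [← ENNReal.ofReal_toReal (hfin 0 1), ← measureReal_def]
    refine ENNReal.tendsto_ofReal ?_
    simpa using (tendsto_one_div_atTop_nhds_zero_nat.const_add (1 : ℝ)).mul_const (ν.real (Icc 0 1))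
  exact ge_of_tendsto hlim (eventually_atTop.2 ⟨1, fun m h => hm m h⟩)

/-- Even log-concave weights: replacing the indicator of `[-1,1]` by the Gaussian profile can
only decrease the integral. -/
lemma peak_weight {w : (Fin n → ℝ) → ℝ≥0∞} (hw : Measurable w)
    (hmid : ∀ x y, w x * w y ≤ w ((1 / 2 : ℝ) • (x + y)) ^ 2) (heven : ∀ x, w (-x) = w x)
    (a : Fin n → ℝ) (hfin : ∀ R : ℝ, ∫⁻ x in {x | |a ⬝ᵥ x| ≤ R}, w x ≠ ⊤) :
    ∫⁻ x, ENNReal.ofReal (phi (a ⬝ᵥ x)) * w x ≤ ∫⁻ x in {x | |a ⬝ᵥ x| ≤ 1}, w x := by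
  have hd : Measurable fun x : Fin n → ℝ => a ⬝ᵥ x :=
    (by fun_prop : Continuous fun x : Fin n → ℝ => a ⬝ᵥ x).measurable
  rcases eq_or_ne a 0 with rfl | ha
  · simp [phi]
  set ν := Measure.map (fun x : Fin n → ℝ => a ⬝ᵥ x) (volume.withDensity w) with hν
  have hap : ∀ S : Set ℝ, MeasurableSet S → ν S = ∫⁻ x in (fun x => a ⬝ᵥ x) ⁻¹' S, w x :=
    fun S hS => by rw [hν, Measure.map_apply hd hS, withDensity_apply _ (hd hS)]
  have hIcc : ∀ p q : ℝ, ν (Icc p q) = ∫⁻ x, ((fun x => a ⬝ᵥ x) ⁻¹' Icc p q).indicator w x :=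
    fun p q => by rw [hap _ measurableSet_Icc, ← lintegral_indicator (hd measurableSet_Icc)]
  have hne : ∀ p q : ℝ, ν (Icc p q) ≠ ⊤ := fun p q => by
    rw [hap _ measurableSet_Icc]
    refine ne_top_of_le_ne_top (hfin (max |p| |q|)) (lintegral_mono_set fun x hx => ?_)
    have h1 : p ≤ a ⬝ᵥ x := hx.1
    have h2 : a ⬝ᵥ x ≤ q := hx.2
    show |a ⬝ᵥ x| ≤ max |p| |q|
    exact abs_le.2 ⟨by linarith [neg_abs_le p, le_max_left |p| |q|],
      by linarith [le_abs_self q, le_max_right |p| |q|]⟩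
  have : NullSingletonClass ν := ⟨fun t => by
    rw [hap _ (measurableSet_singleton t)]
    refine setLIntegral_measure_zero _ _ ?_
    have hg : (Fin.cons (-t) a : Fin (n + 1) → ℝ) ≠ 0 := fun h => ha (funext fun i => by
      simpa using congrFun h i.succ)
    refine measure_mono_null ?_ (volume_zero_of_dotProduct_homog hg)
    intro x hx
    simp only [mem_preimage, mem_singleton_iff] at hx
    simp [homog, dotProduct, Fin.sum_univ_succ] at hx ⊢
    linarith⟩
  have hneg : ∀ p q : ℝ, ν (Icc (-q) (-p)) = ν (Icc p q) := fun p q => by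
    rw [hIcc, hIcc, ← (Measure.measurePreserving_neg
      (volume : Measure (Fin n → ℝ))).lintegral_comp (hw.indicator (hd measurableSet_Icc))]
    refine lintegral_congr fun x => ?_
    have hiff : -x ∈ (fun x => a ⬝ᵥ x) ⁻¹' Icc (-q) (-p) ↔ x ∈ (fun x => a ⬝ᵥ x) ⁻¹' Icc p q := by
      simp only [mem_preimage, dotProduct_neg, mem_Icc, neg_le_neg_iff, and_comm]
    by_cases h : x ∈ (fun x => a ⬝ᵥ x) ⁻¹' Icc p q
    · rw [indicator_of_mem h, indicator_of_mem (hiff.2 h), heven]
    · rw [indicator_of_notMem h, indicator_of_notMem fun h' => h (hiff.1 h')]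
  have hm2 : ∀ δ p q : ℝ, ν (Icc (p - δ) (p + δ)) * ν (Icc (q - δ) (q + δ)) ≤
      ν (Icc ((p + q) / 2 - δ) ((p + q) / 2 + δ)) ^ 2 := by
    intro δ p q
    simp only [hIcc]
    refine P074.pl_pi n (hw.indicator (hd measurableSet_Icc)) (hw.indicator (hd measurableSet_Icc))
      (hw.indicator (hd measurableSet_Icc)) fun x y => ?_
    by_cases hx : x ∈ (fun x => a ⬝ᵥ x) ⁻¹' Icc (p - δ) (p + δ)
    · by_cases hy : y ∈ (fun x => a ⬝ᵥ x) ⁻¹' Icc (q - δ) (q + δ)
      · have hz : (1 / 2 : ℝ) • (x + y) ∈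
            (fun x => a ⬝ᵥ x) ⁻¹' Icc ((p + q) / 2 - δ) ((p + q) / 2 + δ) := by
          simp only [mem_preimage, mem_Icc, dotProduct_smul, dotProduct_add, smul_eq_mul] at hx hy ⊢
          constructor <;> linarith [hx.1, hx.2, hy.1, hy.2]
        rw [indicator_of_mem hx, indicator_of_mem hy, indicator_of_mem hz]
        exact hmid x y
      · simp [indicator_of_notMem hy]
    · simp [indicator_of_notMem hx]
  have hdy : ∀ δ c : ℝ, ∀ m : ℕ, ∀ j : ℕ, j ≤ 2 ^ m → ν (Icc (c - δ) (c + δ)) ≤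
      ν (Icc ((j : ℝ) / 2 ^ m * c - δ) ((j : ℝ) / 2 ^ m * c + δ)) := by
    intro δ c m
    induction m with
    | zero =>
      intro j hj
      rcases Nat.le_one_iff_eq_zero_or_eq_one.1 (by simpa using hj) with rfl | rfl
      · refine (ENNReal.pow_le_pow_left_iff two_ne_zero).1 ((pow_two _).le.trans ?_)
        have h1 := hm2 δ c (-c)
        have h2 := hneg (c - δ) (c + δ)
        rw [show -c - δ = -(c + δ) by ring, show -c + δ = -(c - δ) by ring, h2] at h1
        simpa using h1
      · simp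
    | succ m ih =>
      intro j hj
      have h2 : 2 ^ (m + 1) = 2 * 2 ^ m := by ring
      set p := j / 2 with hp
      set q := j - j / 2 with hq
      have hpq : j = p + q := by omega
      refine (ENNReal.pow_le_pow_left_iff two_ne_zero).1 ((pow_two _).le.trans ?_)
      refine (mul_le_mul' (ih p (by omega)) (ih q (by omega))).trans ?_
      refine (hm2 δ _ _).trans (le_of_eq ?_)
      have e : ((p : ℝ) / 2 ^ m * c + (q : ℝ) / 2 ^ m * c) / 2 = (j : ℝ) / 2 ^ (m + 1) * c := by
        rw [hpq, pow_succ]; push_cast; ring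
      rw [e]
  have hmono : ∀ δ c' c : ℝ, 0 ≤ δ → 0 ≤ c' → c' ≤ c →
      ν (Icc (c - δ) (c + δ)) ≤ ν (Icc (c' - δ) (c' + δ)) := by
    intro δ c' c hδ h0 hle
    rcases (h0.trans hle).eq_or_lt with hc | hc
    · obtain rfl : c' = c := le_antisymm hle (hc ▸ h0)
      exact le_rfl
    let E : ℕ → Set ℝ := fun m => Icc (c' - δ - c / 2 ^ m) (c' + δ + c / 2 ^ m)
    have hsub : ∀ m, ν (Icc (c - δ) (c + δ)) ≤ ν (E m) := fun m => by
      have h2 : (0 : ℝ) < 2 ^ m := by positivity
      set j := ⌊c' / c * 2 ^ m⌋₊ with hj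
      have hj1 : (j : ℝ) ≤ c' / c * 2 ^ m := Nat.floor_le (by positivity)
      have hj2 : c' / c * 2 ^ m < j + 1 := Nat.lt_floor_add_one _
      have hj3 : j ≤ 2 ^ m := by
        have : (j : ℝ) ≤ ((2 ^ m : ℕ) : ℝ) := by
          push_cast; exact hj1.trans (mul_le_of_le_one_left h2.le ((div_le_one hc).2 hle))
        exact_mod_cast this
      refine (hdy δ c m j hj3).trans (measure_mono ?_)
      have e1 : (j : ℝ) / 2 ^ m * c ≤ c' := by
        rw [div_mul_eq_mul_div, div_le_iff₀ h2]
        have := (mul_le_mul_of_nonneg_right hj1 hc.le)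
        rw [div_mul_eq_mul_div, div_mul_cancel₀ _ hc.ne'] at this
        linarith
      have e2 : c' - c / 2 ^ m ≤ (j : ℝ) / 2 ^ m * c := by
        rw [div_mul_eq_mul_div, sub_le_iff_le_add, ← add_div, le_div_iff₀ h2]
        have := (mul_le_mul_of_nonneg_right hj2.le hc.le)
        rw [div_mul_eq_mul_div, div_mul_cancel₀ _ hc.ne'] at this
        linarith
      intro t ht
      exact ⟨by linarith [ht.1], by linarith [ht.2, (by positivity : (0 : ℝ) ≤ c / 2 ^ m)]⟩
    have hinter : (⋂ m, E m) = Icc (c' - δ) (c' + δ) := by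
      have hl : Tendsto (fun m : ℕ => c / (2 : ℝ) ^ m) atTop (𝓝 0) :=
        tendsto_const_nhds.div_atTop (tendsto_pow_atTop_atTop_of_one_lt one_lt_two)
      ext t
      simp only [E, mem_iInter, mem_Icc]
      refine ⟨fun h => ⟨?_, ?_⟩, fun h m => ?_⟩
      · exact le_of_tendsto' (by simpa using hl.const_sub (c' - δ)) fun m => (h m).1
      · exact ge_of_tendsto' (by simpa using hl.const_add (c' + δ)) fun m => (h m).2
      · have : (0 : ℝ) ≤ c / 2 ^ m := by positivity
        constructor <;> linarith [h.1, h.2]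
    rw [← hinter]
    refine ge_of_tendsto' (tendsto_measure_iInter_atTop (fun m => measurableSet_Icc.nullMeasurableSet)
      ?_ ⟨0, hne _ _⟩) hsub
    intro i j hij t ht
    have : c / (2 : ℝ) ^ j ≤ c / 2 ^ i :=
      div_le_div_of_nonneg_left hc.le (by positivity) (pow_le_pow_right₀ one_le_two hij)
    exact ⟨by linarith [ht.1], by linarith [ht.2]⟩
  have hhalf := half_peak ν hne hmono
  have hphm : Measurable fun t => ENNReal.ofReal (phi t) := continuous_phi.measurable.ennreal_ofReal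
  have hLneg : ∫⁻ t in Iic 0, ENNReal.ofReal (phi t) ∂ν =
      ∫⁻ t in Ici 0, ENNReal.ofReal (phi t) ∂ν := by
    have hmap : Measure.map Neg.neg ν = ν := by
      rw [hν, Measure.map_map measurable_neg hd]
      ext S hS
      rw [Measure.map_apply (measurable_neg.comp hd) hS, Measure.map_apply hd hS,
        withDensity_apply _ ((measurable_neg.comp hd) hS), withDensity_apply _ (hd hS),
        ← lintegral_indicator ((measurable_neg.comp hd) hS), ← lintegral_indicator (hd hS),
        ← (Measure.measurePreserving_neg (volume : Measure (Fin n → ℝ))).lintegral_comp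
          (hw.indicator (hd hS))]
      refine lintegral_congr fun x => ?_
      have hiff : x ∈ (Neg.neg ∘ fun x => a ⬝ᵥ x) ⁻¹' S ↔ -x ∈ (fun x => a ⬝ᵥ x) ⁻¹' S := by
        simp [dotProduct_neg]
      by_cases h : x ∈ (Neg.neg ∘ fun x => a ⬝ᵥ x) ⁻¹' S
      · rw [indicator_of_mem h, indicator_of_mem (hiff.1 h), heven]
      · rw [indicator_of_notMem h, indicator_of_notMem fun h' => h (hiff.2 h')]
    conv_lhs => rw [← hmap]
    rw [setLIntegral_map measurableSet_Iic hphm measurable_neg]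
    simp [phi_neg]
  calc ∫⁻ x, ENNReal.ofReal (phi (a ⬝ᵥ x)) * w x
      = ∫⁻ t, ENNReal.ofReal (phi t) ∂ν := by
        have hpc : Measurable fun x : Fin n → ℝ => ENNReal.ofReal (phi (a ⬝ᵥ x)) := hphm.comp hd
        rw [hν, lintegral_map hphm hd, lintegral_withDensity_eq_lintegral_mul _ hw hpc]
        exact lintegral_congr fun x => mul_comm _ _
    _ ≤ ∫⁻ t in Ici 0, ENNReal.ofReal (phi t) ∂ν + ∫⁻ t in Iic 0, ENNReal.ofReal (phi t) ∂ν := by
        rw [← setLIntegral_univ]
        exact (lintegral_mono_set (fun t _ => le_total 0 t)).trans (lintegral_union_le _ _ _)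
    _ ≤ ν (Icc 0 1) + ν (Icc (-1) 0) := by
        have h1 := hneg 0 1
        rw [neg_zero] at h1
        rw [hLneg, h1]
        exact add_le_add hhalf hhalf
    _ = ν (Icc (-1) 1) := by
        rw [← measure_union₀ measurableSet_Icc.nullMeasurableSet, union_comm,
          Icc_union_Icc_eq_Icc (by norm_num) (by norm_num)]
        refine measure_mono_null ?_ (measure_singleton 0)
        rintro t ⟨h1, h2⟩
        exact le_antisymm h2.2 h1.1
    _ = _ := by
        rw [hap _ measurableSet_Icc]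
        congr 2
        ext x
        simp [abs_le]

end Vale.Agent.P254.Slabs
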